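import Vale.Agent.P141.H834.Cnt

/-!
# P141, line W: counts of singular values of a gauged slice of a uniform function

`UnifP δ A B C G` is `δ`-uniformity on the box with the pair weight.  `exists_cnt`: for every gauge
`a` there are normalised singular values `s z i` of the slices `a x y * G (x, y, z)` with the energy
identities, and for every `σ > 0`

* `σ ^ 2 * cnt ≤ e |a|₂²`,
* `σ ^ 4 * cnt ≤ 23 δ² e |a|₂² |a|₄²`,
* `σ ^ 6 * cnt ≤ 486 δ⁴ e h² |a|₂⁴` if `|a| ≤ h` on the box.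
-/

namespace Vale.Agent.P141.H834

noncomputable section

open scoped BigOperators
open Finset Vale.Agent.P141.PL.H315 Vale.Agent.P141.H315 Vale.Agent.P141.H550 Vale.Agent.P141.H769
open Vale.Agent.P141.H922 (n2 n4 nN n2_nonneg n4_nonneg nN_nonneg n2_sq n4_sq n4_four nN_sq)

/-- `δ`-uniformity on a box, with the pair weight -/
def UnifP (δ : ℝ) (A B C : Finset ℤ) (G : ℤ × ℤ × ℤ → ℝ) : Prop :=
  ∀ u : Tri, |avg (A ×ˢ B ×ˢ C) (fun q => G q * atm u q)| ≤
    δ * (nN (A ×ˢ B) u.1 * nN (A ×ˢ C) u.2.1 * n2 (B ×ˢ C) u.2.2 +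
      nN (A ×ˢ B) u.1 * nN (B ×ˢ C) u.2.2 * n2 (A ×ˢ C) u.2.1 +
      nN (A ×ˢ C) u.2.1 * nN (B ×ˢ C) u.2.2 * n2 (A ×ˢ B) u.1)

/-- all line averages of `G²` on the box are at most `e` -/
structure LineB (e : ℝ) (A B C : Finset ℤ) (G : ℤ × ℤ × ℤ → ℝ) : Prop where
  l1 : ∀ y ∈ B, ∀ z ∈ C, (avg A fun x => G (x, y, z) ^ 2) ≤ e
  l2 : ∀ x ∈ A, ∀ z ∈ C, (avg B fun y => G (x, y, z) ^ 2) ≤ e
  l3 : ∀ x ∈ A, ∀ y ∈ B, (avg C fun z => G (x, y, z) ^ 2) ≤ e

/-- the gauge as a function on the square -/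
def gf (a : ℤ → ℤ → ℝ) : ℤ × ℤ → ℝ := fun r => a r.1 r.2

theorem cnt_nonneg {A : Finset ℤ} (C : Finset ℤ) (s : ℤ → A → ℝ) (σ : ℝ) : 0 ≤ cnt C s σ := by
  unfold cnt
  exact avg_nonneg fun _ _ => Nat.cast_nonneg _

/-- the trivial count -/
theorem cnt_le_sum {A : Finset ℤ} {C : Finset ℤ} {s : ℤ → A → ℝ} {σ : ℝ} (hσ : 0 ≤ σ)
    (m : ℕ) : σ ^ m * cnt C s σ ≤ avg C fun z => ∑ i, |s z i| ^ m := by
  classical
  unfold cnt
  rw [← avg_mul_left]
  refine avg_mono fun z _ => ?_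
  rw [mul_comm, ← nsmul_eq_mul]
  refine (card_nsmul_le_sum _ (fun i => |s z i| ^ m) _ fun i hi => ?_).trans ?_
  · exact pow_le_pow_left₀ hσ ((mem_filter.1 hi).2.trans (le_abs_self _)) m
  · exact sum_le_sum_of_subset_of_nonneg (filter_subset _ _) fun _ _ _ => by positivity

theorem gf_two {A B : Finset ℤ} (a : ℤ → ℤ → ℝ) :
    n2 (A ×ˢ B) (gf a) ^ 2 = avg A fun x => avg B fun y => a x y ^ 2 := by
  rw [n2_sq, avg_prod]; rfl

theorem gf_four {A B : Finset ℤ} (a : ℤ → ℤ → ℝ) :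
    n4 (A ×ˢ B) (gf a) ^ 4 = avg A fun x => avg B fun y => a x y ^ 4 := by
  rw [n4_four, avg_prod]; rfl

section

variable {e : ℝ} {A B C : Finset ℤ} {G : ℤ × ℤ × ℤ → ℝ}

/-- the energy of the slices -/
theorem energy_le (hL : LineB e A B C G) (a : ℤ → ℤ → ℝ) :
    mo2 A B C a G ≤ e * n2 (A ×ˢ B) (gf a) ^ 2 := by
  unfold mo2
  rw [gf_two, ← avg_mul_left, avg_comm]
  refine avg_mono fun x hx => ?_
  rw [← avg_mul_left, avg_comm]
  refine avg_mono fun y hy => ?_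
  have h1 : (avg C fun z => sl a G z x y ^ 2) = a x y ^ 2 * avg C fun z => G (x, y, z) ^ 2 := by
    rw [← avg_mul_left]
    exact avg_congr fun z _ => by unfold sl; ring
  rw [h1, mul_comm e]
  exact mul_le_mul_of_nonneg_left (hL.l3 x hx y hy) (sq_nonneg _)

/-- the rows of a general gauge -/
theorem row_four (he : 0 ≤ e) (hL : LineB e A B C G) (a : ℤ → ℤ → ℝ) :
    (avg C fun z => avg A fun x => (avg B fun y => sl a G z x y ^ 2) ^ 2) ≤
      e ^ 2 * n4 (A ×ˢ B) (gf a) ^ 4 := by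
  have h1 : (avg C fun z => avg A fun x => (avg B fun y => sl a G z x y ^ 2) ^ 2) ≤
      avg C fun z => avg A fun x => e * avg B fun y => a x y ^ 4 * G (x, y, z) ^ 2 := by
    refine avg_mono fun z hz => avg_mono fun x hx => ?_
    have h2 := avg_mul_sq_le B (fun y => G (x, y, z)) (fun y => a x y ^ 2 * G (x, y, z))
    have h3 : (avg B fun y => sl a G z x y ^ 2) =
        avg B fun y => G (x, y, z) * (a x y ^ 2 * G (x, y, z)) :=
      avg_congr fun y _ => by unfold sl; ring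
    rw [h3]
    refine h2.trans ?_
    have h4 : (avg B fun y => (a x y ^ 2 * G (x, y, z)) ^ 2) =
        avg B fun y => a x y ^ 4 * G (x, y, z) ^ 2 := avg_congr fun y _ => by ring
    rw [h4]
    exact mul_le_mul_of_nonneg_right (hL.l2 x hx z hz) (avg_nonneg fun _ _ => by positivity)
  refine h1.trans ?_
  rw [gf_four]
  have h5 : (avg C fun z => avg A fun x => e * avg B fun y => a x y ^ 4 * G (x, y, z) ^ 2) =
      e * avg A fun x => avg B fun y => a x y ^ 4 * avg C fun z => G (x, y, z) ^ 2 := by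
    rw [avg_comm, ← avg_mul_left]
    refine avg_congr fun x _ => ?_
    rw [avg_mul_left]
    congr 1
    rw [avg_comm]
    exact avg_congr fun y _ => avg_mul_left _ _ _
  rw [h5, sq, mul_assoc]
  refine mul_le_mul_of_nonneg_left ?_ he
  rw [← avg_mul_left]
  refine avg_mono fun x hx => ?_
  rw [← avg_mul_left]
  refine avg_mono fun y hy => ?_
  rw [mul_comm e]
  exact mul_le_mul_of_nonneg_left (hL.l3 x hx y hy) (by positivity)

/-- the columns of a general gauge -/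
theorem col_four (he : 0 ≤ e) (hL : LineB e A B C G) (a : ℤ → ℤ → ℝ) :
    (avg C fun z => avg B fun y => (avg A fun x => sl a G z x y ^ 2) ^ 2) ≤
      e ^ 2 * n4 (A ×ˢ B) (gf a) ^ 4 := by
  have h1 : (avg C fun z => avg B fun y => (avg A fun x => sl a G z x y ^ 2) ^ 2) ≤
      avg C fun z => avg B fun y => e * avg A fun x => a x y ^ 4 * G (x, y, z) ^ 2 := by
    refine avg_mono fun z hz => avg_mono fun y hy => ?_
    have h2 := avg_mul_sq_le A (fun x => G (x, y, z)) (fun x => a x y ^ 2 * G (x, y, z))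
    have h3 : (avg A fun x => sl a G z x y ^ 2) =
        avg A fun x => G (x, y, z) * (a x y ^ 2 * G (x, y, z)) :=
      avg_congr fun x _ => by unfold sl; ring
    rw [h3]
    refine h2.trans ?_
    have h4 : (avg A fun x => (a x y ^ 2 * G (x, y, z)) ^ 2) =
        avg A fun x => a x y ^ 4 * G (x, y, z) ^ 2 := avg_congr fun x _ => by ring
    rw [h4]
    exact mul_le_mul_of_nonneg_right (hL.l1 y hy z hz) (avg_nonneg fun _ _ => by positivity)
  refine h1.trans ?_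
  rw [gf_four, avg_comm A B]
  have h5 : (avg C fun z => avg B fun y => e * avg A fun x => a x y ^ 4 * G (x, y, z) ^ 2) =
      e * avg B fun y => avg A fun x => a x y ^ 4 * avg C fun z => G (x, y, z) ^ 2 := by
    rw [avg_comm, ← avg_mul_left]
    refine avg_congr fun y _ => ?_
    rw [avg_mul_left]
    congr 1
    rw [avg_comm]
    exact avg_congr fun x _ => avg_mul_left _ _ _
  rw [h5, sq, mul_assoc]
  refine mul_le_mul_of_nonneg_left ?_ he
  rw [← avg_mul_left]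
  refine avg_mono fun y hy => ?_
  rw [← avg_mul_left]
  refine avg_mono fun x hx => ?_
  rw [mul_comm e]
  exact mul_le_mul_of_nonneg_left (hL.l3 x hx y hy) (by positivity)

/-- the test inequality, abstractly -/
theorem arith {σ δ p q X Y W n : ℝ} (hσ : 0 ≤ σ) (hδ : 0 ≤ δ)
    (hX : 0 ≤ X) (hW : 0 ≤ W) (hn : n = X ^ 2)
    (h1 : p * q * (X * Y) ≤ W) (h2 : (Y * p) ^ 2 ≤ W)
    (h : σ * n ≤ δ * (2 * (X * √(p * q * (X * Y))) + X * Y * p)) :
    σ ^ 2 * n ≤ 9 * δ ^ 2 * W := by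
  rcases hX.eq_or_lt with h0 | hX0
  · rw [hn, ← h0]
    have : 0 ≤ 9 * δ ^ 2 * W := by positivity
    simpa using this
  have e1 : √(p * q * (X * Y)) ≤ √W := Real.sqrt_le_sqrt h1
  have e2 : Y * p ≤ √W := Real.le_sqrt_of_sq_le h2
  have e3 : σ * X ≤ 3 * δ * √W := by
    have h3 : X * (σ * X) ≤ X * (3 * δ * √W) := by
      rw [hn] at h
      calc X * (σ * X) = σ * X ^ 2 := by ring
        _ ≤ δ * (2 * (X * √(p * q * (X * Y))) + X * Y * p) := h
        _ ≤ δ * (2 * (X * √W) + X * √W) := by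
            refine mul_le_mul_of_nonneg_left ?_ hδ
            have a1 := mul_le_mul_of_nonneg_left e1 hX
            have a2 := mul_le_mul_of_nonneg_left e2 hX
            nlinarith
        _ = X * (3 * δ * √W) := by ring
    exact le_of_mul_le_mul_left h3 hX0
  have e4 : (σ * X) ^ 2 ≤ (3 * δ * √W) ^ 2 := pow_le_pow_left₀ (by positivity) e3 2
  rw [hn]
  calc σ ^ 2 * X ^ 2 = (σ * X) ^ 2 := by ring
    _ ≤ (3 * δ * √W) ^ 2 := e4
    _ = 9 * δ ^ 2 * √W ^ 2 := by ring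
    _ = 9 * δ ^ 2 * W := by rw [Real.sq_sqrt hW]

/-- the test inequality -/
theorem test_unif {δ : ℝ} (hδ : 0 ≤ δ) (hU : UnifP δ A B C G) (a : ℤ → ℤ → ℝ)
    (b c : ℤ × ℤ → ℝ) {X Y : ℝ} (hX : 0 ≤ X) (hY : 0 ≤ Y)
    (hb : n2 (A ×ˢ C) b = X) (hc : n2 (B ×ˢ C) c = X)
    (hb4 : n4 (A ×ˢ C) b ≤ Y) (hc4 : n4 (B ×ˢ C) c ≤ Y) :
    (avg C fun z => avg A fun x => avg B fun y => sl a G z x y * (b (x, z) * c (y, z))) ≤
      δ * (2 * (X * √(n2 (A ×ˢ B) (gf a) * n4 (A ×ˢ B) (gf a) * (X * Y))) +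
        X * Y * n2 (A ×ˢ B) (gf a)) := by
  set p := n2 (A ×ˢ B) (gf a) with hp
  set q := n4 (A ×ˢ B) (gf a) with hq
  have hp0 : 0 ≤ p := n2_nonneg _ _
  have hq0 : 0 ≤ q := n4_nonneg _ _
  have h := (le_abs_self _).trans (hU (gf a, b, c))
  have e0 : (avg (A ×ˢ B ×ˢ C) fun r => G r * atm (gf a, b, c) r) =
      avg C fun z => avg A fun x => avg B fun y => sl a G z x y * (b (x, z) * c (y, z)) := by
    have e1 : ∀ x y z, G (x, y, z) * atm (gf a, b, c) (x, y, z) =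
        sl a G z x y * (b (x, z) * c (y, z)) := by
      intro x y z
      unfold atm sl gf e12 e13 e23
      ring
    rw [avg_prod]
    have e2 : ∀ x, (avg (B ×ˢ C) fun r => G (x, r) * atm (gf a, b, c) (x, r)) =
        avg C fun z => avg B fun y => sl a G z x y * (b (x, z) * c (y, z)) := by
      intro x
      rw [avg_prod, avg_comm]
      exact avg_congr fun z _ => avg_congr fun y _ => e1 x y z
    rw [avg_congr fun x _ => e2 x, avg_comm]
  rw [e0] at h
  refine h.trans (mul_le_mul_of_nonneg_left ?_ hδ)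
  have N1 : nN (A ×ˢ B) (gf a) = √(p * q) := rfl
  have N2 : nN (A ×ˢ C) b ≤ √(X * Y) := by
    unfold nN
    rw [hb]
    exact Real.sqrt_le_sqrt (mul_le_mul_of_nonneg_left hb4 hX)
  have N3 : nN (B ×ˢ C) c ≤ √(X * Y) := by
    unfold nN
    rw [hc]
    exact Real.sqrt_le_sqrt (mul_le_mul_of_nonneg_left hc4 hX)
  have m2 : 0 ≤ nN (A ×ˢ C) b := nN_nonneg _ _
  have m3 : 0 ≤ nN (B ×ˢ C) c := nN_nonneg _ _
  have hs : √(p * q * (X * Y)) = √(p * q) * √(X * Y) := Real.sqrt_mul (by positivity) _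
  have hs2 : √(X * Y) * √(X * Y) = X * Y := Real.mul_self_sqrt (by positivity)
  simp only
  rw [N1, hc, hb, hs]
  have t1 : √(p * q) * nN (A ×ˢ C) b * X ≤ √(p * q) * √(X * Y) * X := by gcongr
  have t2 : √(p * q) * nN (B ×ˢ C) c * X ≤ √(p * q) * √(X * Y) * X := by gcongr
  have t3 : nN (A ×ˢ C) b * nN (B ×ˢ C) c * n2 (A ×ˢ B) (gf a) ≤ X * Y * p := by
    calc nN (A ×ˢ C) b * nN (B ×ˢ C) c * n2 (A ×ˢ B) (gf a) ≤
        √(X * Y) * √(X * Y) * p := by
          rw [← hp]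
          gcongr
      _ = X * Y * p := by rw [hs2]
  linarith

theorem n4_sq_le_of_abs_le {h : ℝ} (hh : 0 ≤ h) {a : ℤ → ℤ → ℝ}
    (ha : ∀ x ∈ A, ∀ y ∈ B, |a x y| ≤ h) :
    n4 (A ×ˢ B) (gf a) ^ 2 ≤ h * n2 (A ×ˢ B) (gf a) := by
  rw [n4_sq]
  refine Real.sqrt_le_left (mul_nonneg hh (n2_nonneg _ _)) |>.2 ?_
  rw [mul_pow, n2_sq, ← avg_mul_left]
  refine avg_mono fun r hr => ?_
  have h1 := ha r.1 (Finset.mem_product.1 hr).1 r.2 (Finset.mem_product.1 hr).2
  have h2 : gf a r ^ 2 ≤ h ^ 2 := sq_le_sq' (by have := abs_le.1 h1; exact this.1)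
    (by have := abs_le.1 h1; exact this.2)
  calc gf a r ^ 4 = gf a r ^ 2 * gf a r ^ 2 := by ring
    _ ≤ h ^ 2 * gf a r ^ 2 := mul_le_mul_of_nonneg_right h2 (sq_nonneg _)

/-- **Counts of singular values of the gauged slices.** -/
theorem exists_cnt {δ : ℝ} (hδ : 0 ≤ δ) (he : 0 ≤ e) (hA : A.Nonempty) (hB : B.Nonempty)
    (hU : UnifP δ A B C G) (hL : LineB e A B C G) (a : ℤ → ℤ → ℝ) :
    ∃ s : ℤ → A → ℝ, (∀ z i, 0 ≤ s z i) ∧
      (∀ z, ∑ i, s z i ^ 2 = avg A fun x => avg B fun y => sl a G z x y ^ 2) ∧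
      (∀ z, ∑ i, s z i ^ 4 = avg A fun x => avg A fun c => g2 B (sl a G z) x c ^ 2) ∧
      (∀ σ, 0 < σ → σ ^ 2 * cnt C s σ ≤ e * n2 (A ×ˢ B) (gf a) ^ 2) ∧
      (∀ σ, 0 < σ → σ ^ 4 * cnt C s σ ≤
        23 * δ ^ 2 * e * (n2 (A ×ˢ B) (gf a) * n4 (A ×ˢ B) (gf a)) ^ 2) ∧
      ∀ h, 0 ≤ h → (∀ x ∈ A, ∀ y ∈ B, |a x y| ≤ h) → ∀ σ, 0 < σ →
        σ ^ 6 * cnt C s σ ≤ 486 * δ ^ 4 * e * h ^ 2 * n2 (A ×ˢ B) (gf a) ^ 4 := by
  obtain ⟨s, hs0, hs2, hs4, hT⟩ := exists_test hA hB (sl a G)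
  have hen : ∀ σ, 0 < σ → σ ^ 2 * cnt C s σ ≤ e * n2 (A ×ˢ B) (gf a) ^ 2 := by
    intro σ hσ
    refine (cnt_le_sum hσ.le 2).trans (le_trans (le_of_eq ?_) (energy_le hL a))
    unfold mo2
    refine avg_congr fun z _ => ?_
    rw [← hs2]
    exact sum_congr rfl fun i _ => sq_abs _
  set p := n2 (A ×ˢ B) (gf a) with hp
  set q := n4 (A ×ˢ B) (gf a) with hq
  have hp0 : 0 ≤ p := n2_nonneg _ _
  have hq0 : 0 ≤ q := n4_nonneg _ _
  -- the common part
  have key : ∀ σ, 0 < σ → ∀ β, 0 ≤ β →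
      (∀ r : ℤ → ℤ → ℝ, (∀ z, ∀ x ∈ A, 0 ≤ r z x) →
          (∀ z, ∀ x ∈ A, σ ^ 2 * r z x ≤ avg B fun y => sl a G z x y ^ 2) →
          avg C (fun z => avg A (r z)) = cnt C s σ →
          avg C (fun z => avg A fun x => r z x ^ 2) ≤ β) →
      (∀ r : ℤ → ℤ → ℝ, (∀ z, ∀ y ∈ B, 0 ≤ r z y) →
          (∀ z, ∀ y ∈ B, σ ^ 2 * r z y ≤ avg A fun x => sl a G z x y ^ 2) →
          avg C (fun z => avg B (r z)) = cnt C s σ →
          avg C (fun z => avg B fun y => r z y ^ 2) ≤ β) →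
      ∀ W, 0 ≤ W → p * q * (√(cnt C s σ) * √√(6 * β)) ≤ W → √(6 * β) * p ^ 2 ≤ W →
        σ ^ 2 * cnt C s σ ≤ 9 * δ ^ 2 * W := by
    intro σ hσ β hβ hr1 hr2 W hW h1 h2
    obtain ⟨b, c, hb2, hc2, hb4, hc4, hM⟩ := hT C σ β hσ hr1 hr2
    refine arith (X := √(cnt C s σ)) (Y := √√(6 * β)) hσ.le hδ (Real.sqrt_nonneg _) hW
      (Real.sq_sqrt (cnt_nonneg C s σ)).symm h1 ?_ ?_
    · rw [mul_pow, Real.sq_sqrt (Real.sqrt_nonneg _)]
      exact h2
    · refine hM.trans (test_unif hδ hU a b c (Real.sqrt_nonneg _) (Real.sqrt_nonneg _) ?_ ?_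
        ?_ ?_)
      · unfold n2; rw [hb2]
      · unfold n2; rw [hc2]
      · exact Real.sqrt_le_sqrt (Real.sqrt_le_sqrt hb4)
      · exact Real.sqrt_le_sqrt (Real.sqrt_le_sqrt hc4)
  refine ⟨s, hs0, hs2, hs4, hen, ?_, ?_⟩
  · intro σ hσ
    set n := cnt C s σ with hn
    have hn0 : 0 ≤ n := cnt_nonneg C s σ
    set T : ℝ := e * q ^ 2 / σ ^ 2 with hT'
    have hT0 : 0 ≤ T := by positivity
    have hen' : n ≤ e * p ^ 2 / σ ^ 2 := by
      rw [le_div_iff₀ (by positivity), mul_comm]; exact hen σ hσ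
    have h6 : √(6 * T ^ 2) = √6 * T := by
      rw [Real.sqrt_mul (by norm_num), Real.sqrt_sq hT0]
    have h61 : √(6 : ℝ) ≤ 245 / 100 := by
      rw [Real.sqrt_le_left (by norm_num)]; norm_num
    have h62 : (1 : ℝ) ≤ √6 := by
      rw [Real.one_le_sqrt]; norm_num
    have h63 : √(6 : ℝ) ^ 2 = 6 := Real.sq_sqrt (by norm_num)
    have k := key σ hσ (T ^ 2) (by positivity) ?_ ?_ (√6 * T * p ^ 2) (by positivity) ?_
      (by rw [h6])
    · -- conclusion
      have k1 : σ ^ 4 * n ≤ 9 * δ ^ 2 * √6 * (e * (p * q) ^ 2) := by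
        have e1 : σ ^ 2 * (9 * δ ^ 2 * (√6 * T * p ^ 2)) = 9 * δ ^ 2 * √6 * (e * (p * q) ^ 2) := by
          rw [hT']; field_simp
        rw [← e1]
        calc σ ^ 4 * n = σ ^ 2 * (σ ^ 2 * n) := by ring
          _ ≤ _ := mul_le_mul_of_nonneg_left k (by positivity)
      refine k1.trans ?_
      have k2 : 9 * δ ^ 2 * √6 * (e * (p * q) ^ 2) = √6 * (9 * (δ ^ 2 * e * (p * q) ^ 2)) := by
        ring
      rw [k2]
      have k3 : 0 ≤ δ ^ 2 * e * (p * q) ^ 2 := by positivity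
      nlinarith
    · -- rows
      intro r hr0 hr _
      have h1 : avg C (fun z => avg A fun x => r z x ^ 2) ≤
          (σ ^ 4)⁻¹ * avg C fun z => avg A fun x => (avg B fun y => sl a G z x y ^ 2) ^ 2 := by
        rw [← avg_mul_left]
        refine avg_mono fun z _ => ?_
        rw [← avg_mul_left]
        refine avg_mono fun x hx => ?_
        have h2 := pow_le_pow_left₀ (mul_nonneg (by positivity) (hr0 z x hx)) (hr z x hx) 2
        rw [le_inv_mul_iff₀ (by positivity)]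
        calc σ ^ 4 * r z x ^ 2 = (σ ^ 2 * r z x) ^ 2 := by ring
          _ ≤ _ := h2
      refine h1.trans ((mul_le_mul_of_nonneg_left (row_four he hL a) (by positivity)).trans
        (le_of_eq ?_))
      rw [hT', ← hq]
      field_simp
    · intro r hr0 hr _
      have h1 : avg C (fun z => avg B fun y => r z y ^ 2) ≤
          (σ ^ 4)⁻¹ * avg C fun z => avg B fun y => (avg A fun x => sl a G z x y ^ 2) ^ 2 := by
        rw [← avg_mul_left]
        refine avg_mono fun z _ => ?_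
        rw [← avg_mul_left]
        refine avg_mono fun y hy => ?_
        have h2 := pow_le_pow_left₀ (mul_nonneg (by positivity) (hr0 z y hy)) (hr z y hy) 2
        rw [le_inv_mul_iff₀ (by positivity)]
        calc σ ^ 4 * r z y ^ 2 = (σ ^ 2 * r z y) ^ 2 := by ring
          _ ≤ _ := h2
      refine h1.trans ((mul_le_mul_of_nonneg_left (col_four he hL a) (by positivity)).trans
        (le_of_eq ?_))
      rw [hT', ← hq]
      field_simp
    · -- the product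
      rw [h6]
      have hXY : √n * √(√6 * T) ≤ √6 * (e * p * q / σ ^ 2) := by
        rw [← Real.sqrt_mul hn0]
        rw [Real.sqrt_le_left (by positivity)]
        calc n * (√6 * T) ≤ e * p ^ 2 / σ ^ 2 * (√6 * T) :=
              mul_le_mul_of_nonneg_right hen' (by positivity)
          _ = √6 * (e * p * q / σ ^ 2) ^ 2 := by rw [hT']; field_simp
          _ ≤ √6 ^ 2 * (e * p * q / σ ^ 2) ^ 2 := by
              refine mul_le_mul_of_nonneg_right ?_ (sq_nonneg _)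
              nlinarith
          _ = (√6 * (e * p * q / σ ^ 2)) ^ 2 := by ring
      calc p * q * (√n * √(√6 * T)) ≤ p * q * (√6 * (e * p * q / σ ^ 2)) :=
            mul_le_mul_of_nonneg_left hXY (by positivity)
        _ = √6 * T * p ^ 2 := by rw [hT']; field_simp
  · intro h hh ha σ hσ
    set n := cnt C s σ with hn
    have hn0 : 0 ≤ n := cnt_nonneg C s σ
    have hen' : n ≤ e * p ^ 2 / σ ^ 2 := by
      rw [le_div_iff₀ (by positivity), mul_comm]; exact hen σ hσ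
    have hq2 : q ^ 2 ≤ h * p := n4_sq_le_of_abs_le hh ha
    have ha2 : ∀ x ∈ A, ∀ y ∈ B, a x y ^ 2 ≤ h ^ 2 := fun x hx y hy =>
      sq_le_sq' (abs_le.1 (ha x hx y hy)).1 (abs_le.1 (ha x hx y hy)).2
    set β : ℝ := h ^ 2 * e / σ ^ 2 * n with hβ
    have hβ0 : 0 ≤ β := by positivity
    set S : ℝ := √(6 * β) with hS
    have hS0 : 0 ≤ S := Real.sqrt_nonneg _
    have hS2 : S ^ 2 = 6 * β := Real.sq_sqrt (by positivity)
    have hhn : h * n ≤ S * p := by
      refine abs_le_of_sq_le_sq' ?_ (by positivity) |>.2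
      rw [mul_pow, mul_pow, hS2, hβ]
      calc h ^ 2 * n ^ 2 = h ^ 2 * n * n := by ring
        _ ≤ h ^ 2 * n * (e * p ^ 2 / σ ^ 2) := mul_le_mul_of_nonneg_left hen' (by positivity)
        _ = 1 * (h ^ 2 * e / σ ^ 2 * n * p ^ 2) := by ring
        _ ≤ 6 * (h ^ 2 * e / σ ^ 2 * n * p ^ 2) :=
            mul_le_mul_of_nonneg_right (by norm_num) (by positivity)
        _ = 6 * (h ^ 2 * e / σ ^ 2 * n) * p ^ 2 := by ring
    have k := key σ hσ β hβ0 ?_ ?_ (S * p ^ 2) (by positivity) ?_ le_rfl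
    · -- conclusion
      have k1 : (σ ^ 2 * n) ^ 2 ≤ (9 * δ ^ 2 * (S * p ^ 2)) ^ 2 :=
        pow_le_pow_left₀ (by positivity) k 2
      have k2 : (9 * δ ^ 2 * (S * p ^ 2)) ^ 2 = 486 * δ ^ 4 * e * h ^ 2 * p ^ 4 * n / σ ^ 2 := by
        calc (9 * δ ^ 2 * (S * p ^ 2)) ^ 2 = 81 * δ ^ 4 * S ^ 2 * p ^ 4 := by ring
          _ = _ := by rw [hS2, hβ]; ring
      rw [k2, le_div_iff₀ (by positivity)] at k1
      rcases hn0.eq_or_lt with h0 | hpos
      · rw [← h0, mul_zero]; positivity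
      · refine le_of_mul_le_mul_right ?_ hpos
        calc σ ^ 6 * n * n = (σ ^ 2 * n) ^ 2 * σ ^ 2 := by ring
          _ ≤ 486 * δ ^ 4 * e * h ^ 2 * p ^ 4 * n := k1
    · -- rows
      intro r hr0 hr hrn
      have hrow : ∀ z ∈ C, ∀ x ∈ A, r z x ≤ h ^ 2 * e / σ ^ 2 := by
        intro z hz x hx
        rw [le_div_iff₀ (by positivity), mul_comm]
        refine (hr z x hx).trans ?_
        have h1 : (avg B fun y => sl a G z x y ^ 2) ≤ h ^ 2 * avg B fun y => G (x, y, z) ^ 2 := by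
          rw [← avg_mul_left]
          refine avg_mono fun y hy => ?_
          unfold sl
          rw [mul_pow]
          exact mul_le_mul_of_nonneg_right (ha2 x hx y hy) (sq_nonneg _)
        exact h1.trans (mul_le_mul_of_nonneg_left (hL.l2 x hx z hz) (sq_nonneg _))
      rw [hβ, hn, ← hrn, ← avg_mul_left]
      refine avg_mono fun z hz => ?_
      rw [← avg_mul_left]
      refine avg_mono fun x hx => ?_
      rw [sq]
      exact mul_le_mul_of_nonneg_right (hrow z hz x hx) (hr0 z x hx)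
    · intro r hr0 hr hrn
      have hrow : ∀ z ∈ C, ∀ y ∈ B, r z y ≤ h ^ 2 * e / σ ^ 2 := by
        intro z hz y hy
        rw [le_div_iff₀ (by positivity), mul_comm]
        refine (hr z y hy).trans ?_
        have h1 : (avg A fun x => sl a G z x y ^ 2) ≤ h ^ 2 * avg A fun x => G (x, y, z) ^ 2 := by
          rw [← avg_mul_left]
          refine avg_mono fun x hx => ?_
          unfold sl
          rw [mul_pow]
          exact mul_le_mul_of_nonneg_right (ha2 x hx y hy) (sq_nonneg _)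
        exact h1.trans (mul_le_mul_of_nonneg_left (hL.l1 y hy z hz) (sq_nonneg _))
      rw [hβ, hn, ← hrn, ← avg_mul_left]
      refine avg_mono fun z hz => ?_
      rw [← avg_mul_left]
      refine avg_mono fun y hy => ?_
      rw [sq]
      exact mul_le_mul_of_nonneg_right (hrow z hz y hy) (hr0 z y hy)
    · -- the product
      refine abs_le_of_sq_le_sq' ?_ (by positivity) |>.2
      have e1 : (p * q * (√n * √S)) ^ 2 = S * p ^ 2 * (q ^ 2 * n) := by
        rw [mul_pow, mul_pow, mul_pow, Real.sq_sqrt hn0, Real.sq_sqrt hS0]; ring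
      rw [e1]
      calc S * p ^ 2 * (q ^ 2 * n) ≤ S * p ^ 2 * (h * p * n) := by gcongr
        _ = S * p ^ 3 * (h * n) := by ring
        _ ≤ S * p ^ 3 * (S * p) := mul_le_mul_of_nonneg_left hhn (by positivity)
        _ = (S * p ^ 2) ^ 2 := by ring

end

end

end Vale.Agent.P141.H834
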