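import Vale.Agent.P141.H834.CntP
import Vale.Agent.P141.H573.MomP

/-!
# P141, line W: the averaged fourth moment of the gauged slices in the pair weight

`mo4_flat`: `mo4 ≤ 500 δ² e h |a|₂³` for `|a| ≤ h`; `mo4_le`: `mo4 ≤ 240000 δ² e |a|₂² |a|₄²` for
every gauge `a`.
-/

namespace Vale.Agent.P141.H834

noncomputable section

open scoped BigOperators
open Finset Vale.Agent.P141.PL.H315 Vale.Agent.P141.H315 Vale.Agent.P141.H550 Vale.Agent.P141.H769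
open Vale.Agent.P141.H922 (n2 n4 nN n2_nonneg n4_nonneg nN_nonneg n2_sq n4_sq n4_four nN_sq)

/-- the layers of one number -/
theorem layer_one {σ s : ℝ} (hσ : 0 < σ) (hs : 0 ≤ s) (J : ℕ) (hJ : s < 2 ^ J * σ) :
    s ^ 4 ≤ σ ^ 2 * s ^ 2 + 16 * ∑ j ∈ range J, (2 ^ j * σ) ^ 4 *
      (if 2 ^ j * σ ≤ s then 1 else 0) := by
  induction J with
  | zero =>
    simp only [pow_zero, one_mul, range_zero, sum_empty, mul_zero, add_zero] at hJ ⊢
    nlinarith [mul_nonneg (sq_nonneg s) (mul_nonneg (sub_nonneg.2 hJ.le)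
      (add_nonneg hσ.le hs))]
  | succ J ih =>
    rw [sum_range_succ]
    have hn : 0 ≤ ∑ j ∈ range J, (2 ^ j * σ) ^ 4 * (if 2 ^ j * σ ≤ s then (1 : ℝ) else 0) :=
      sum_nonneg fun j _ => by split_ifs <;> positivity
    by_cases h : s < 2 ^ J * σ
    · have h1 := ih h
      have h2 : (0 : ℝ) ≤ (2 ^ J * σ) ^ 4 * (if 2 ^ J * σ ≤ s then (1 : ℝ) else 0) := by
        split_ifs <;> positivity
      linarith
    · rw [not_lt] at h
      rw [if_pos h]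
      have h1 : s ^ 4 ≤ (2 * (2 ^ J * σ)) ^ 4 := by
        refine pow_le_pow_left₀ hs (le_of_lt ?_) 4
        calc s < 2 ^ (J + 1) * σ := hJ
          _ = 2 * (2 ^ J * σ) := by ring
      have h2 : (2 * (2 ^ J * σ)) ^ 4 = 16 * ((2 ^ J * σ) ^ 4 * 1) := by ring
      rw [h2] at h1
      have h3 : 0 ≤ σ ^ 2 * s ^ 2 := by positivity
      linarith

/-- the layers, averaged -/
theorem layer_avg {A : Finset ℤ} (C : Finset ℤ) {s : ℤ → A → ℝ} (hs : ∀ z i, 0 ≤ s z i) {D : ℝ}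
    (hD : 0 ≤ D) (h6 : ∀ σ, 0 < σ → σ ^ 6 * cnt C s σ ≤ D) {σ : ℝ} (hσ : 0 < σ) :
    (avg C fun z => ∑ i, s z i ^ 4) ≤
      σ ^ 2 * (avg C fun z => ∑ i, s z i ^ 2) + 64 / 3 * D / σ ^ 2 := by
  classical
  obtain ⟨J, hJ⟩ : ∃ J : ℕ, ∀ z ∈ C, ∀ i, s z i < 2 ^ J * σ := by
    obtain ⟨J, hJ⟩ := pow_unbounded_of_one_lt ((∑ z ∈ C, ∑ i, s z i) / σ) (one_lt_two (α := ℝ))
    refine ⟨J, fun z hz i => ?_⟩
    rw [div_lt_iff₀ hσ] at hJ
    refine lt_of_le_of_lt ?_ hJ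
    have t1 : s z i ≤ ∑ i : A, s z i :=
      single_le_sum (f := fun i : A => s z i) (fun i _ => hs z i) (mem_univ i)
    have t0 : ∀ w ∈ C, 0 ≤ ∑ i : A, s w i := fun w _ => sum_nonneg fun i _ => hs w i
    have t2 : ∑ i : A, s z i ≤ ∑ w ∈ C, ∑ i : A, s w i :=
      single_le_sum (f := fun w => ∑ i : A, s w i) t0 hz
    exact t1.trans t2
  have h1 : (avg C fun z => ∑ i, s z i ^ 4) ≤ avg C fun z => (σ ^ 2 * ∑ i, s z i ^ 2 +
      ∑ j ∈ range J, 16 * (2 ^ j * σ) ^ 4 *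
        (((univ : Finset A).filter fun i => 2 ^ j * σ ≤ s z i).card : ℝ)) := by
    refine avg_mono fun z hz => ?_
    have h2 : ∑ i, s z i ^ 4 ≤ ∑ i, (σ ^ 2 * s z i ^ 2 + 16 * ∑ j ∈ range J, (2 ^ j * σ) ^ 4 *
        (if 2 ^ j * σ ≤ s z i then 1 else 0)) :=
      sum_le_sum fun i _ => layer_one hσ (hs z i) J (hJ z hz i)
    refine h2.trans (le_of_eq ?_)
    have t4 : ∑ i, (σ ^ 2 * s z i ^ 2 + 16 * ∑ j ∈ range J, (2 ^ j * σ) ^ 4 *
        (if 2 ^ j * σ ≤ s z i then (1 : ℝ) else 0)) = σ ^ 2 * ∑ i, s z i ^ 2 +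
        ∑ j ∈ range J, 16 * ∑ i : A, (2 ^ j * σ) ^ 4 *
          (if 2 ^ j * σ ≤ s z i then (1 : ℝ) else 0) := by
      rw [sum_add_distrib, ← mul_sum, ← mul_sum, sum_comm]
      congr 1
      rw [← mul_sum]
    rw [t4]
    refine congrArg (fun t => σ ^ 2 * ∑ i, s z i ^ 2 + t) ?_
    refine Finset.sum_congr rfl fun j _ => ?_
    have t3 : ∑ i : A, (2 ^ j * σ) ^ 4 * (if 2 ^ j * σ ≤ s z i then (1 : ℝ) else 0) =
        (2 ^ j * σ) ^ 4 *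
          (((univ : Finset A).filter fun i => 2 ^ j * σ ≤ s z i).card : ℝ) := by
      rw [← mul_sum, Finset.sum_boole]
    rw [t3]
    ring
  refine h1.trans ?_
  have h3 : (avg C fun z => (σ ^ 2 * ∑ i, s z i ^ 2 +
      ∑ j ∈ range J, 16 * (2 ^ j * σ) ^ 4 *
        (((univ : Finset A).filter fun i => 2 ^ j * σ ≤ s z i).card : ℝ))) =
      σ ^ 2 * (avg C fun z => ∑ i, s z i ^ 2) +
        ∑ j ∈ range J, 16 * (2 ^ j * σ) ^ 4 * cnt C s (2 ^ j * σ) := by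
    rw [avg_add, avg_mul_left]
    congr 1
    unfold cnt avg
    simp only [mul_sum]
    rw [sum_comm]
    exact sum_congr rfl fun j _ => sum_congr rfl fun z _ => by ring
  rw [h3]
  have h4 : ∑ j ∈ range J, 16 * (2 ^ j * σ) ^ 4 * cnt C s (2 ^ j * σ) ≤
      ∑ j ∈ range J, (16 * D / σ ^ 2) * (1 / 4 : ℝ) ^ j := by
    refine sum_le_sum fun j _ => ?_
    have hp : 0 < (2 : ℝ) ^ j * σ := by positivity
    have h5 := h6 _ hp
    have h7 : 16 * ((2 : ℝ) ^ j * σ) ^ 4 * cnt C s (2 ^ j * σ) =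
        16 * (((2 : ℝ) ^ j * σ) ^ 6 * cnt C s (2 ^ j * σ)) / ((2 : ℝ) ^ j * σ) ^ 2 := by
      field_simp
    have h8 : 16 * D / σ ^ 2 * (1 / 4 : ℝ) ^ j = 16 * D / ((2 : ℝ) ^ j * σ) ^ 2 := by
      rw [one_div, inv_pow, show (4 : ℝ) = 2 ^ 2 by norm_num, ← pow_mul, mul_comm 2 j, pow_mul]
      field_simp
    rw [h7, h8]
    gcongr
  have h9 : ∑ j ∈ range J, (16 * D / σ ^ 2) * (1 / 4 : ℝ) ^ j ≤ 64 / 3 * D / σ ^ 2 := by
    rw [← mul_sum]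
    have h10 : ∑ j ∈ range J, (1 / 4 : ℝ) ^ j ≤ 4 / 3 := by
      rw [geom_sum_eq (by norm_num)]
      have : (0 : ℝ) < (1 / 4) ^ J := by positivity
      rw [div_le_iff_of_neg (by norm_num)]
      linarith
    calc 16 * D / σ ^ 2 * ∑ j ∈ range J, (1 / 4 : ℝ) ^ j ≤ 16 * D / σ ^ 2 * (4 / 3) :=
          mul_le_mul_of_nonneg_left h10 (by positivity)
      _ = _ := by ring
  linarith

variable {e δ : ℝ} {A B C : Finset ℤ} {G : ℤ × ℤ × ℤ → ℝ}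

/-- **Flat gauges.** -/
theorem mo4_flat (hδ : 0 ≤ δ) (he : 0 ≤ e) (hA : A.Nonempty) (hB : B.Nonempty)
    (hU : UnifP δ A B C G) (hL : LineB e A B C G) (a : ℤ → ℤ → ℝ) (h : ℝ) (hh : 0 ≤ h)
    (ha : ∀ x ∈ A, ∀ y ∈ B, |a x y| ≤ h) :
    mo4 A B C a G ≤ 500 * (δ ^ 2 * e) * (h * n2 (A ×ˢ B) (gf a) ^ 3) := by
  obtain ⟨s, hs0, hs2, hs4, -, -, h6⟩ := exists_cnt hδ he hA hB hU hL a
  have h6' := h6 h hh ha
  set p := n2 (A ×ˢ B) (gf a) with hp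
  have hp0 : 0 ≤ p := n2_nonneg _ _
  have e4 : mo4 A B C a G = avg C fun z => ∑ i, s z i ^ 4 :=
    avg_congr fun z _ => (hs4 z).symm
  have e2 : (avg C fun z => ∑ i, s z i ^ 2) ≤ e * p ^ 2 := by
    refine le_trans (le_of_eq ?_) (energy_le hL a)
    exact avg_congr fun z _ => hs2 z
  set D : ℝ := 486 * δ ^ 4 * e * h ^ 2 * p ^ 4 with hD
  have hD0 : 0 ≤ D := by positivity
  set R : ℝ := 221 / 10 * (δ ^ 2 * h * p) with hR
  have hR0 : 0 ≤ R := by positivity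
  have hDR : D ≤ R ^ 2 * (e * p ^ 2) := by
    rw [hD, hR]
    have : 0 ≤ δ ^ 4 * h ^ 2 * p ^ 4 * e := by positivity
    nlinarith
  refine le_of_forall_pos_le_add fun η hη => ?_
  -- choose the level
  set τ : ℝ := η / (e * p ^ 2 + 1) with hτ
  have hep : 0 ≤ e * p ^ 2 := by positivity
  have hτ0 : 0 < τ := by positivity
  have hσ : 0 < √(R + τ) := Real.sqrt_pos.2 (by positivity)
  have hσ2 : √(R + τ) ^ 2 = R + τ := Real.sq_sqrt (by positivity)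
  have k := layer_avg C hs0 hD0 h6' hσ
  rw [hσ2, ← e4] at k
  have k1 : (R + τ) * (avg C fun z => ∑ i, s z i ^ 2) ≤ (R + τ) * (e * p ^ 2) :=
    mul_le_mul_of_nonneg_left e2 (by positivity)
  have k2 : 64 / 3 * D / (R + τ) ≤ 64 / 3 * (R * (e * p ^ 2)) := by
    rw [div_le_iff₀ (by positivity)]
    calc 64 / 3 * D ≤ 64 / 3 * (R ^ 2 * (e * p ^ 2)) := by linarith
      _ ≤ 64 / 3 * (R * (e * p ^ 2)) * (R + τ) := by
          have : 0 ≤ R * (e * p ^ 2) * τ := by positivity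
          nlinarith
  have k3 : τ * (e * p ^ 2) ≤ η := by
    rw [hτ, div_mul_eq_mul_div, div_le_iff₀ (by positivity)]
    nlinarith
  have k4 : mo4 A B C a G ≤ (67 / 3) * (R * (e * p ^ 2)) + η := by nlinarith
  refine k4.trans ?_
  rw [hR]
  have : 0 ≤ δ ^ 2 * e * (h * p ^ 3) := by positivity
  nlinarith

/-- **THE S4 MOMENT LEMMA IN THE PAIR WEIGHT.** -/
theorem mo4_le (hδ : 0 ≤ δ) (he : 0 ≤ e) (hA : A.Nonempty) (hB : B.Nonempty)
    (hU : UnifP δ A B C G) (hL : LineB e A B C G) (a : ℤ → ℤ → ℝ) :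
    mo4 A B C a G ≤
      240000 * (δ ^ 2 * e) * (n2 (A ×ˢ B) (gf a) * n4 (A ×ˢ B) (gf a)) ^ 2 := by
  have h := H573.mo4_pair (A := A) (B := B) (C := C) (G := G) (k := 500 * (δ ^ 2 * e))
    (by positivity) (fun a h hh ha => mo4_flat hδ he hA hB hU hL a h hh ha) a
  refine h.trans (le_of_eq ?_)
  show 480 * (500 * (δ ^ 2 * e) * (n2 (A ×ˢ B) (gf a) ^ 2 * n4 (A ×ˢ B) (gf a) ^ 2)) = _
  ring

end

end Vale.Agent.P141.H834
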