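import Vale.Agent.P141.H834.CntP

/-!
# P141, line W: the trivial fourth moment of a gauged slice

No uniformity: only the line averages of `G²` are bounded by `e`.  For every gauge `a`

* `mo4_triv`: `avg_z |a G^z|_{S4}^4 ≤ e² |a|₂² |a|₄²`;
* `cnt_triv`: `σ ^ 4 * cnt ≤ e² |a|₂² |a|₄²` for the singular values of the slices.
-/

namespace Vale.Agent.P141.H834

noncomputable section

open scoped BigOperators
open Finset Vale.Agent.P141.PL.H315 Vale.Agent.P141.H315 Vale.Agent.P141.H550 Vale.Agent.P141.H769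
open Vale.Agent.P141.H922 (n2 n4 nN n2_nonneg n4_nonneg nN_nonneg n2_sq n4_sq n4_four nN_sq)

/-- one Cauchy-Schwarz on the quadruples -/
theorem s4_le (A B : Finset ℤ) (M : ℤ → ℤ → ℝ) :
    (avg A fun x => avg A fun c => g2 B M x c ^ 2) ≤
      avg A fun x => avg B fun y => M x y ^ 2 * ((avg B fun y' => |M x y'|) *
        avg A fun c => |M c y|) := by
  set I : ℝ := avg A fun x => avg B fun y => M x y ^ 2 * ((avg B fun y' => |M x y'|) *
        avg A fun c => |M c y|) with hI
  have e0 : ∀ x c, g2 B M x c ^ 2 =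
      avg B fun y => avg B fun y' => M x y * M c y * (M x y' * M c y') := by
    intro x c
    unfold g2
    rw [sq]
    rw [← avg_mul_left]
    refine avg_congr fun y _ => ?_
    rw [avg_mul_left, mul_comm]
  have e1 : (avg A fun x => avg A fun c => g2 B M x c ^ 2) ≤
      avg A fun x => avg A fun c => avg B fun y => avg B fun y' =>
        (1 / 2) * (M x y ^ 2 * (|M x y'| * |M c y|) + M c y' ^ 2 * (|M c y| * |M x y'|)) := by
    refine avg_mono fun x _ => avg_mono fun c _ => ?_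
    rw [e0]
    refine avg_mono fun y _ => avg_mono fun y' _ => ?_
    have h1 : M x y * M c y * (M x y' * M c y') ≤
        |M x y| * |M c y'| * (|M x y'| * |M c y|) := by
      refine (le_abs_self _).trans (le_of_eq ?_)
      rw [abs_mul, abs_mul, abs_mul]; ring
    have h2 : |M x y| * |M c y'| ≤ (1 / 2) * (M x y ^ 2 + M c y' ^ 2) := by
      have := two_mul_le_add_sq (|M x y|) (|M c y'|)
      rw [sq_abs, sq_abs] at this
      linarith
    refine h1.trans ((mul_le_mul_of_nonneg_right h2 (by positivity)).trans (le_of_eq ?_))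
    ring
  refine e1.trans (le_of_eq ?_)
  have e2 : (avg A fun x => avg A fun c => avg B fun y => avg B fun y' =>
        (1 / 2) * (M x y ^ 2 * (|M x y'| * |M c y|) + M c y' ^ 2 * (|M c y| * |M x y'|))) =
      (1 / 2) * ((avg A fun x => avg A fun c => avg B fun y => avg B fun y' =>
        M x y ^ 2 * (|M x y'| * |M c y|)) +
        avg A fun x => avg A fun c => avg B fun y => avg B fun y' =>
        M c y' ^ 2 * (|M c y| * |M x y'|)) := by
    simp only [avg_mul_left, avg_add]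
  have e3 : (avg A fun x => avg A fun c => avg B fun y => avg B fun y' =>
        M x y ^ 2 * (|M x y'| * |M c y|)) = I := by
    rw [hI]
    refine avg_congr fun x _ => ?_
    rw [avg_comm]
    refine avg_congr fun y _ => ?_
    have : ∀ c, (avg B fun y' => M x y ^ 2 * (|M x y'| * |M c y|)) =
        M x y ^ 2 * ((avg B fun y' => |M x y'|) * |M c y|) := by
      intro c
      rw [avg_mul_left]
      congr 1
      rw [mul_comm (avg B fun y' => |M x y'|), ← avg_mul_left]
      exact avg_congr fun y' _ => mul_comm _ _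
    rw [avg_congr fun c _ => this c, avg_mul_left, avg_mul_left]
  have e4 : (avg A fun x => avg A fun c => avg B fun y => avg B fun y' =>
        M c y' ^ 2 * (|M c y| * |M x y'|)) = I := by
    rw [avg_comm, ← e3]
    refine avg_congr fun x _ => avg_congr fun c _ => ?_
    rw [avg_comm]
  rw [e2, e3, e4]
  ring

variable {e : ℝ} {A B C : Finset ℤ} {G : ℤ × ℤ × ℤ → ℝ}

/-- **The trivial fourth moment.** -/
theorem mo4_triv (he : 0 ≤ e) (hL : LineB e A B C G) (a : ℤ → ℤ → ℝ) :
    mo4 A B C a G ≤ e ^ 2 * (n2 (A ×ˢ B) (gf a) * n4 (A ×ˢ B) (gf a)) ^ 2 := by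
  set r : ℤ → ℝ := fun x => √(avg B fun y => a x y ^ 2) with hr
  set k : ℤ → ℝ := fun y => √(avg A fun x => a x y ^ 2) with hk
  have hr0 : ∀ x, 0 ≤ r x := fun x => Real.sqrt_nonneg _
  have hk0 : ∀ y, 0 ≤ k y := fun y => Real.sqrt_nonneg _
  have hrow : ∀ z ∈ C, ∀ x ∈ A, (avg B fun y => |sl a G z x y|) ≤ r x * √e := by
    intro z hz x hx
    have h1 : (avg B fun y => |sl a G z x y|) = avg B fun y => |a x y| * |G (x, y, z)| :=
      avg_congr fun y _ => by unfold sl; rw [abs_mul]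
    rw [h1]
    refine (avg_mul_le_sqrt B _ _).trans ?_
    simp only [sq_abs]
    exact mul_le_mul_of_nonneg_left (Real.sqrt_le_sqrt (hL.l2 x hx z hz)) (Real.sqrt_nonneg _)
  have hcol : ∀ z ∈ C, ∀ y ∈ B, (avg A fun x => |sl a G z x y|) ≤ k y * √e := by
    intro z hz y hy
    have h1 : (avg A fun x => |sl a G z x y|) = avg A fun x => |a x y| * |G (x, y, z)| :=
      avg_congr fun x _ => by unfold sl; rw [abs_mul]
    rw [h1]
    refine (avg_mul_le_sqrt A _ _).trans ?_
    simp only [sq_abs]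
    exact mul_le_mul_of_nonneg_left (Real.sqrt_le_sqrt (hL.l1 y hy z hz)) (Real.sqrt_nonneg _)
  have hse : √e * √e = e := Real.mul_self_sqrt he
  -- one slice
  have h1 : mo4 A B C a G ≤ avg C fun z => avg A fun x => avg B fun y =>
      e * (r x * k y * a x y ^ 2) * G (x, y, z) ^ 2 := by
    unfold mo4
    refine avg_mono fun z hz => (s4_le A B _).trans ?_
    refine avg_mono fun x hx => avg_mono fun y hy => ?_
    have h2 : (avg B fun y' => |sl a G z x y'|) * (avg A fun c => |sl a G z c y|) ≤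
        (r x * √e) * (k y * √e) :=
      mul_le_mul (hrow z hz x hx) (hcol z hz y hy) (avg_nonneg fun _ _ => abs_nonneg _)
        (mul_nonneg (hr0 x) (Real.sqrt_nonneg _))
    refine (mul_le_mul_of_nonneg_left h2 (sq_nonneg _)).trans (le_of_eq ?_)
    unfold sl
    calc (a x y * G (x, y, z)) ^ 2 * (r x * √e * (k y * √e)) =
        (√e * √e) * (r x * k y * a x y ^ 2) * G (x, y, z) ^ 2 := by ring
      _ = _ := by rw [hse]
  -- average over z
  have h2 : (avg C fun z => avg A fun x => avg B fun y =>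
      e * (r x * k y * a x y ^ 2) * G (x, y, z) ^ 2) ≤
      e ^ 2 * avg (A ×ˢ B) fun q => gf a q ^ 2 * (r q.1 * k q.2) := by
    rw [avg_comm, avg_prod, ← avg_mul_left]
    refine avg_mono fun x hx => ?_
    rw [avg_comm, ← avg_mul_left]
    refine avg_mono fun y hy => ?_
    rw [avg_mul_left]
    have h3 : 0 ≤ e * (r x * k y * a x y ^ 2) :=
      mul_nonneg he (mul_nonneg (mul_nonneg (hr0 x) (hk0 y)) (sq_nonneg _))
    refine (mul_le_mul_of_nonneg_left (hL.l3 x hx y hy) h3).trans (le_of_eq ?_)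
    show _ = e ^ 2 * (a x y ^ 2 * (r x * k y))
    ring
  -- the Cauchy-Schwarz inequality for the gauge
  have h3 : (avg (A ×ˢ B) fun q => gf a q ^ 2 * (r q.1 * k q.2)) ≤
      (n2 (A ×ˢ B) (gf a) * n4 (A ×ˢ B) (gf a)) ^ 2 := by
    refine (avg_mul_le_sqrt _ _ _).trans ?_
    have e1 : √(avg (A ×ˢ B) fun q => (gf a q ^ 2) ^ 2) = n4 (A ×ˢ B) (gf a) ^ 2 := by
      rw [n4_sq]
      congr 1
      exact avg_congr fun q _ => by ring
    have e2 : (avg (A ×ˢ B) fun q => (r q.1 * k q.2) ^ 2) = (n2 (A ×ˢ B) (gf a) ^ 2) ^ 2 := by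
      rw [avg_prod]
      have e3 : ∀ x y, (r x * k y) ^ 2 =
          (avg B fun y => a x y ^ 2) * avg A fun x => a x y ^ 2 := by
        intro x y
        rw [mul_pow, Real.sq_sqrt (avg_nonneg fun _ _ => sq_nonneg _),
          Real.sq_sqrt (avg_nonneg fun _ _ => sq_nonneg _)]
      simp only [e3, avg_mul_left]
      rw [sq (n2 (A ×ˢ B) (gf a) ^ 2), gf_two, avg_comm B A]
      rw [← avg_mul_left]
      exact avg_congr fun x _ => mul_comm _ _
    have e4 : √((n2 (A ×ˢ B) (gf a) ^ 2) ^ 2) = n2 (A ×ˢ B) (gf a) ^ 2 :=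
      Real.sqrt_sq (sq_nonneg _)
    rw [e1, e2, e4]
    exact le_of_eq (by ring)
  exact h1.trans (h2.trans (mul_le_mul_of_nonneg_left h3 (sq_nonneg _)))

/-- the count of the singular values against the fourth moment -/
theorem cnt_le_mo4 {a : ℤ → ℤ → ℝ} {s : ℤ → A → ℝ}
    (hs4 : ∀ z, ∑ i, s z i ^ 4 = avg A fun x => avg A fun c => g2 B (sl a G z) x c ^ 2)
    {σ : ℝ} (hσ : 0 ≤ σ) : σ ^ 4 * cnt C s σ ≤ mo4 A B C a G := by
  refine (cnt_le_sum hσ 4).trans (le_of_eq ?_)
  unfold mo4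
  refine avg_congr fun z _ => ?_
  rw [← hs4]
  refine sum_congr rfl fun i _ => ?_
  calc |s z i| ^ 4 = (|s z i| ^ 2) ^ 2 := by ring
    _ = s z i ^ 4 := by rw [sq_abs]; ring

/-- **The trivial count.** -/
theorem cnt_triv (he : 0 ≤ e) (hL : LineB e A B C G) {a : ℤ → ℤ → ℝ} {s : ℤ → A → ℝ}
    (hs4 : ∀ z, ∑ i, s z i ^ 4 = avg A fun x => avg A fun c => g2 B (sl a G z) x c ^ 2)
    {σ : ℝ} (hσ : 0 ≤ σ) :
    σ ^ 4 * cnt C s σ ≤ e ^ 2 * (n2 (A ×ˢ B) (gf a) * n4 (A ×ˢ B) (gf a)) ^ 2 :=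
  (cnt_le_mo4 hs4 hσ).trans (mo4_triv he hL a)

end

end Vale.Agent.P141.H834
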