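import Mathlib

/-!
# P141, line W: singular vectors of a real matrix, unnormalised

`exists_svd`: singular values `s i`, left vectors `φ i`, right vectors `ψ i` of a real matrix with
finitely many rows and columns, indexed by the rows.
-/

namespace Vale.Agent.P141.H834

open Finset Matrix

noncomputable section

variable {X Y : Type*} [Fintype X] [Fintype Y] [DecidableEq X]

/-- orthonormality of the eigenvectors -/
theorem eig_orth {G : Matrix X X ℝ} (hG : G.IsHermitian) (i j : X) :
    ∑ x, hG.eigenvectorBasis i x * hG.eigenvectorBasis j x = if i = j then 1 else 0 := by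
  have h := hG.eigenvectorBasis.orthonormal
  rw [orthonormal_iff_ite] at h
  have h1 := h i j
  rw [EuclideanSpace.inner_eq_star_dotProduct] at h1
  rw [← h1]
  simp only [dotProduct, Pi.star_apply, star_trivial]
  exact sum_congr rfl fun x _ => mul_comm _ _

/-- completeness of the eigenvectors -/
theorem eig_compl {G : Matrix X X ℝ} (hG : G.IsHermitian) (x c : X) :
    ∑ i, hG.eigenvectorBasis i x * hG.eigenvectorBasis i c = if x = c then 1 else 0 := by
  have h : (hG.eigenvectorUnitary : Matrix X X ℝ) * star (hG.eigenvectorUnitary : Matrix X X ℝ) =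
      1 := Unitary.coe_mul_star_self _
  have h1 := congrFun (congrFun h x) c
  rw [Matrix.mul_apply, Matrix.one_apply] at h1
  rw [← h1]
  refine sum_congr rfl fun i _ => ?_
  rw [Matrix.star_apply, IsHermitian.eigenvectorUnitary_apply,
    IsHermitian.eigenvectorUnitary_apply, star_trivial]

/-- the eigenvector equation -/
theorem eig_eq {G : Matrix X X ℝ} (hG : G.IsHermitian) (i x : X) :
    ∑ c, G x c * hG.eigenvectorBasis i c = hG.eigenvalues i * hG.eigenvectorBasis i x := by
  have h := congrFun (hG.mulVec_eigenvectorBasis i) x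
  simpa [Matrix.mulVec, dotProduct] using h

/-- **Singular value decomposition**, the version which is used below. -/
theorem exists_svd (M : X → Y → ℝ) : ∃ (s : X → ℝ) (φ : X → X → ℝ) (ψ : X → Y → ℝ),
    (∀ i, 0 ≤ s i) ∧
    (∀ i j, ∑ x, φ i x * φ j x = if i = j then 1 else 0) ∧
    (∀ i j, 0 < s i → 0 < s j → ∑ y, ψ i y * ψ j y = if i = j then 1 else 0) ∧
    (∀ i j, 0 < s j → ∑ x, ∑ y, M x y * (φ i x * ψ j y) = if i = j then s j else 0) ∧
    (∀ x, ∑ i, s i ^ 2 * φ i x ^ 2 = ∑ y, M x y ^ 2) ∧
    (∀ y, ∑ i, s i ^ 2 * ψ i y ^ 2 ≤ ∑ x, M x y ^ 2) ∧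
    (∑ i, s i ^ 2 = ∑ x, ∑ y, M x y ^ 2) ∧
    ∑ i, s i ^ 4 = ∑ x, ∑ c, (∑ y, M x y * M c y) ^ 2 := by
  classical
  set A : Matrix X Y ℝ := Matrix.of M with hA
  set G : Matrix X X ℝ := A * Aᵀ with hGd
  have hGe : ∀ x c, G x c = ∑ y, M x y * M c y := by
    intro x c
    rw [hGd, Matrix.mul_apply]
    rfl
  have hps : G.PosSemidef := by
    have := Matrix.posSemidef_self_mul_conjTranspose A
    rwa [Matrix.conjTranspose_eq_transpose_of_trivial] at this
  have hG : G.IsHermitian := hps.1
  set lam : X → ℝ := hG.eigenvalues with hlam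
  have hlam0 : ∀ i, 0 ≤ lam i := fun i => hps.eigenvalues_nonneg i
  set φ : X → X → ℝ := fun i x => hG.eigenvectorBasis i x with hφ
  have horth : ∀ i j, ∑ x, φ i x * φ j x = if i = j then 1 else 0 := fun i j => eig_orth hG i j
  have hcomp : ∀ x c, ∑ i, φ i x * φ i c = if x = c then 1 else 0 := fun x c => eig_compl hG x c
  have heig : ∀ i x, ∑ c, G x c * φ i c = lam i * φ i x := fun i x => eig_eq hG i x
  set m : X → Y → ℝ := fun i y => ∑ x, M x y * φ i x with hm
  set s : X → ℝ := fun i => √(lam i) with hs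
  have hs2 : ∀ i, s i ^ 2 = lam i := fun i => Real.sq_sqrt (hlam0 i)
  -- the Gram matrix of the m
  have hmm : ∀ i j, ∑ y, m i y * m j y = if i = j then lam j else 0 := by
    intro i j
    have e1 : ∑ y, m i y * m j y = ∑ x, φ i x * ∑ c, G x c * φ j c := by
      simp only [hm, Finset.sum_mul_sum]
      rw [sum_comm]
      refine sum_congr rfl fun x _ => ?_
      rw [sum_comm, mul_sum]
      refine sum_congr rfl fun c _ => ?_
      rw [hGe, sum_mul, mul_sum]
      exact sum_congr rfl fun y _ => by ring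
    rw [e1]
    have e2 : ∑ x, φ i x * ∑ c, G x c * φ j c = lam j * ∑ x, φ i x * φ j x := by
      rw [mul_sum]
      refine sum_congr rfl fun x _ => ?_
      rw [heig]; ring
    rw [e2, horth]
    split_ifs <;> simp
  have hmy : ∀ y, ∑ i, m i y ^ 2 = ∑ x, M x y ^ 2 := by
    intro y
    have e1 : ∑ i, m i y ^ 2 = ∑ x, ∑ c, M x y * M c y * ∑ i, φ i x * φ i c := by
      simp only [hm, sq, Finset.sum_mul_sum]
      rw [sum_comm]
      refine sum_congr rfl fun x _ => ?_
      rw [sum_comm]
      refine sum_congr rfl fun c _ => ?_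
      rw [mul_sum]
      exact sum_congr rfl fun i _ => by ring
    rw [e1]
    refine sum_congr rfl fun x _ => ?_
    simp only [hcomp]
    simp [sq]
  have hGx : ∀ x c, ∑ i, lam i * (φ i x * φ i c) = G x c := by
    intro x c
    have e1 : ∑ i, lam i * (φ i x * φ i c) = ∑ d, G x d * ∑ i, φ i d * φ i c := by
      have : ∀ i, lam i * (φ i x * φ i c) = ∑ d, G x d * (φ i d * φ i c) := by
        intro i
        rw [← mul_assoc, ← heig, sum_mul]
        exact sum_congr rfl fun d _ => by ring
      simp only [this]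
      rw [sum_comm]
      refine sum_congr rfl fun d _ => ?_
      rw [mul_sum]
    rw [e1]
    simp only [hcomp]
    simp
  refine ⟨s, φ, fun i y => (s i)⁻¹ * m i y, fun i => Real.sqrt_nonneg _, horth, ?_, ?_, ?_, ?_,
    ?_, ?_⟩
  · intro i j hi hj
    have e1 : ∑ y, (s i)⁻¹ * m i y * ((s j)⁻¹ * m j y) = (s i)⁻¹ * (s j)⁻¹ * ∑ y, m i y * m j y := by
      rw [mul_sum]; exact sum_congr rfl fun y _ => by ring
    rw [e1, hmm]
    split_ifs with h
    · subst h
      rw [← hs2 i]
      field_simp
    · simp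
  · intro i j hj
    have e1 : ∑ x, ∑ y, M x y * (φ i x * ((s j)⁻¹ * m j y)) = (s j)⁻¹ * ∑ y, m i y * m j y := by
      rw [sum_comm, mul_sum]
      refine sum_congr rfl fun y _ => ?_
      calc ∑ x, M x y * (φ i x * ((s j)⁻¹ * m j y)) =
          (∑ x, M x y * φ i x) * ((s j)⁻¹ * m j y) := by
            rw [sum_mul]; exact sum_congr rfl fun x _ => by ring
        _ = (s j)⁻¹ * (m i y * m j y) := by
            show m i y * ((s j)⁻¹ * m j y) = _
            ring
    rw [e1, hmm]
    split_ifs with h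
    · rw [← hs2 j]
      field_simp
    · simp
  · intro x
    have e1 : ∀ i, s i ^ 2 * φ i x ^ 2 = lam i * (φ i x * φ i x) := fun i => by
      rw [hs2]; ring
    simp only [e1]
    rw [hGx, hGe]
    exact sum_congr rfl fun y _ => by ring
  · intro y
    rw [← hmy]
    refine sum_le_sum fun i _ => ?_
    rcases (Real.sqrt_nonneg (lam i)).eq_or_lt with h | h
    · have : s i = 0 := h.symm
      rw [this]
      simp only [ne_eq, OfNat.ofNat_ne_zero, not_false_eq_true, zero_pow, zero_mul]
      positivity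
    · have h' : s i ≠ 0 := (show 0 < s i from h).ne'
      rw [mul_pow, ← mul_assoc, ← mul_pow, mul_inv_cancel₀ h', one_pow, one_mul]
  · simp only [hs2]
    have e1 : ∑ x, ∑ y, M x y ^ 2 = ∑ x, ∑ i, lam i * (φ i x * φ i x) := by
      refine sum_congr rfl fun x _ => ?_
      rw [hGx, hGe]
      exact sum_congr rfl fun y _ => by ring
    rw [e1, sum_comm]
    refine sum_congr rfl fun i _ => ?_
    rw [← mul_sum, horth]
    simp
  · have e0 : ∀ i, s i ^ 4 = lam i ^ 2 := fun i => by
      rw [show s i ^ 4 = (s i ^ 2) ^ 2 by ring, hs2]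
    simp only [e0]
    have e1 : ∑ x, ∑ c, (∑ y, M x y * M c y) ^ 2 =
        ∑ x, ∑ c, G x c * ∑ i, lam i * (φ i x * φ i c) := by
      refine sum_congr rfl fun x _ => sum_congr rfl fun c _ => ?_
      rw [hGx, hGe]; ring
    rw [e1]
    have e2 : ∑ x, ∑ c, G x c * ∑ i, lam i * (φ i x * φ i c) =
        ∑ i, ∑ x, ∑ c, G x c * (lam i * (φ i x * φ i c)) := by
      simp only [mul_sum]
      calc ∑ x, ∑ c, ∑ i, G x c * (lam i * (φ i x * φ i c)) =
          ∑ x, ∑ i, ∑ c, G x c * (lam i * (φ i x * φ i c)) :=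
            sum_congr rfl fun x _ => sum_comm
        _ = _ := sum_comm
    rw [e2]
    refine sum_congr rfl fun i _ => ?_
    have e3 : ∑ x, ∑ c, G x c * (lam i * (φ i x * φ i c)) = lam i * ∑ x, φ i x * ∑ c, G x c * φ i c := by
      rw [mul_sum]
      refine sum_congr rfl fun x _ => ?_
      rw [mul_sum, mul_sum]
      exact sum_congr rfl fun c _ => by ring
    rw [e3]
    have e4 : ∑ x, φ i x * ∑ c, G x c * φ i c = lam i * ∑ x, φ i x * φ i x := by
      rw [mul_sum]
      refine sum_congr rfl fun x _ => ?_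
      rw [heig]; ring
    rw [e4, horth]
    simp [sq]

end

end Vale.Agent.P141.H834
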