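import Vale.Agent.P141.H834.Svd
import Vale.Agent.P141.H769.Mom
import Vale.Agent.P141.H922.PairW
import Vale.Agent.P141.H319.Rad

/-!
# P141, line W: counts of singular values against the pair weight

`UnifP δ A B C G`: `G` is `δ`-uniform on the box `A × B × C` with the pair weight.  For a gauge
`a x y` and the slices `M z x y = a x y * G (x, y, z)`, with the line averages of `G²` at most `e`,
the averaged number of (normalised) singular values `≥ σ` is

* `≤ 23 δ² e |a|₂² |a|₄² σ⁻⁴` for every gauge,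
* `≤ 486 δ⁴ e h² |a|₂⁴ σ⁻⁶` if `|a| ≤ h`.
-/

namespace Vale.Agent.P141.H834

noncomputable section

open scoped BigOperators
open Finset Vale.Agent.P141.PL.H315 Vale.Agent.P141.H315 Vale.Agent.P141.H550 Vale.Agent.P141.H769
open Vale.Agent.P141.H922 (n2 n4 nN n2_nonneg n4_nonneg nN_nonneg n2_sq n4_sq n4_four nN_sq)
open Vale.Agent.P141.H319 (av rs sg av_rs_four av_sum av_mono av_mul_left av_add)

/-- extension by zero -/
def ext (A : Finset ℤ) (f : A → ℝ) (x : ℤ) : ℝ := if h : x ∈ A then f ⟨x, h⟩ else 0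

theorem ext_coe (A : Finset ℤ) (f : A → ℝ) (x : A) : ext A f x = f x := by
  unfold ext; rw [dif_pos x.2]

theorem sum_coe (A : Finset ℤ) (F : ℤ → ℝ) : ∑ x ∈ A, F x = ∑ x : A, F x :=
  (Finset.sum_coe_sort A F).symm

theorem avg_coe (A : Finset ℤ) (F : ℤ → ℝ) : avg A F = (A.card : ℝ)⁻¹ * ∑ x : A, F x := by
  unfold avg; rw [sum_coe]

/-- averaged number of the singular values `≥ σ` -/
def cnt {A : Finset ℤ} (C : Finset ℤ) (s : ℤ → A → ℝ) (σ : ℝ) : ℝ := by
  classical exact avg C fun z => (((univ : Finset A).filter fun i => σ ≤ s z i).card : ℝ)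

theorem exists_le_av {ι : Type*} [Fintype ι] [DecidableEq ι] (f : (ι → Bool) → ℝ) :
    ∃ ε, f ε ≤ av f := by
  by_contra h
  push Not at h
  have h1 : ∑ _ε : ι → Bool, av f < ∑ ε, f ε :=
    sum_lt_sum_of_nonempty univ_nonempty fun ε _ => h ε
  have h2 : ∑ ε, f ε = 2 ^ Fintype.card ι * av f := by
    unfold av; field_simp
  rw [h2] at h1
  simp at h1

theorem orth_sum {ι X : Type*} [Fintype X] [Fintype ι] [DecidableEq ι] (I : Finset ι)
    (f : ι → X → ℝ)
    (h : ∀ i ∈ I, ∀ j ∈ I, ∑ x, f i x * f j x = if i = j then 1 else 0) (ε : ι → Bool) :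
    ∑ x, rs I (fun i => f i x) ε ^ 2 = I.card := by
  have e1 : ∀ x, rs I (fun i => f i x) ε ^ 2 =
      ∑ i ∈ I, ∑ j ∈ I, sg (ε i) * sg (ε j) * (f i x * f j x) := by
    intro x
    unfold rs
    rw [sq, Finset.sum_mul_sum]
    exact sum_congr rfl fun i _ => sum_congr rfl fun j _ => by ring
  simp only [e1]
  rw [sum_comm]
  have e2 : ∀ i ∈ I, ∑ x, ∑ j ∈ I, sg (ε i) * sg (ε j) * (f i x * f j x) = 1 := by
    intro i hi
    rw [sum_comm]
    have e3 : ∀ j ∈ I, ∑ x, sg (ε i) * sg (ε j) * (f i x * f j x) = if i = j then 1 else 0 := by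
      intro j hj
      rw [← mul_sum, h i hi j hj]
      split_ifs with hij
      · subst hij
        rw [mul_one, ← sq, H319.sg_sq]
      · rw [mul_zero]
    rw [sum_congr rfl e3, sum_ite_eq, if_pos hi]
  rw [sum_congr rfl e2]
  simp

theorem bil_sum {ι X Y : Type*} [Fintype X] [Fintype Y] [Fintype ι] [DecidableEq ι]
    (I : Finset ι) (f : ι → X → ℝ) (g : ι → Y → ℝ) (M : X → Y → ℝ) (s : ι → ℝ)
    (h : ∀ i ∈ I, ∀ j ∈ I, ∑ x, ∑ y, M x y * (f i x * g j y) = if i = j then s j else 0)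
    (ε : ι → Bool) :
    ∑ x, ∑ y, M x y * (rs I (fun i => f i x) ε * rs I (fun i => g i y) ε) = ∑ i ∈ I, s i := by
  have e1 : ∀ x y, M x y * (rs I (fun i => f i x) ε * rs I (fun i => g i y) ε) =
      ∑ i ∈ I, ∑ j ∈ I, sg (ε i) * sg (ε j) * (M x y * (f i x * g j y)) := by
    intro x y
    unfold rs
    rw [Finset.sum_mul_sum, mul_sum]
    refine sum_congr rfl fun i _ => ?_
    rw [mul_sum]
    exact sum_congr rfl fun j _ => by ring
  simp only [e1]
  have e0 : ∑ x, ∑ y, ∑ i ∈ I, ∑ j ∈ I, sg (ε i) * sg (ε j) * (M x y * (f i x * g j y)) =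
      ∑ i ∈ I, ∑ j ∈ I, sg (ε i) * sg (ε j) * ∑ x, ∑ y, M x y * (f i x * g j y) := by
    calc _ = ∑ x, ∑ i ∈ I, ∑ y, ∑ j ∈ I, sg (ε i) * sg (ε j) * (M x y * (f i x * g j y)) :=
          sum_congr rfl fun x _ => sum_comm
      _ = ∑ i ∈ I, ∑ x, ∑ y, ∑ j ∈ I, sg (ε i) * sg (ε j) * (M x y * (f i x * g j y)) := sum_comm
      _ = ∑ i ∈ I, ∑ x, ∑ j ∈ I, ∑ y, sg (ε i) * sg (ε j) * (M x y * (f i x * g j y)) :=
          sum_congr rfl fun i _ => sum_congr rfl fun x _ => sum_comm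
      _ = ∑ i ∈ I, ∑ j ∈ I, ∑ x, ∑ y, sg (ε i) * sg (ε j) * (M x y * (f i x * g j y)) :=
          sum_congr rfl fun i _ => sum_comm
      _ = _ := by
          refine sum_congr rfl fun i _ => sum_congr rfl fun j _ => ?_
          rw [mul_sum]
          refine sum_congr rfl fun x _ => ?_
          rw [mul_sum]
  rw [e0]
  refine sum_congr rfl fun i hi => ?_
  have e3 : ∀ j ∈ I, (sg (ε i) * sg (ε j) * ∑ x, ∑ y, M x y * (f i x * g j y)) =
      if i = j then s i else 0 := by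
    intro j hj
    rw [h i hi j hj]
    split_ifs with hij
    · subst hij
      rw [← sq, H319.sg_sq, one_mul]
    · rw [mul_zero]
  rw [sum_congr rfl e3, sum_ite_eq, if_pos hi]

/-- **The tests.** -/
theorem exists_test {A B : Finset ℤ} (hA : A.Nonempty) (hB : B.Nonempty) (M : ℤ → ℤ → ℤ → ℝ) :
    ∃ s : ℤ → A → ℝ, (∀ z i, 0 ≤ s z i) ∧
      (∀ z, ∑ i, s z i ^ 2 = avg A fun x => avg B fun y => M z x y ^ 2) ∧
      (∀ z, ∑ i, s z i ^ 4 = avg A fun x => avg A fun c => g2 B (M z) x c ^ 2) ∧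
      ∀ (C : Finset ℤ) (σ β : ℝ), 0 < σ →
        (∀ r : ℤ → ℤ → ℝ, (∀ z, ∀ x ∈ A, 0 ≤ r z x) →
          (∀ z, ∀ x ∈ A, σ ^ 2 * r z x ≤ avg B fun y => M z x y ^ 2) →
          avg C (fun z => avg A (r z)) = cnt C s σ →
          avg C (fun z => avg A fun x => r z x ^ 2) ≤ β) →
        (∀ r : ℤ → ℤ → ℝ, (∀ z, ∀ y ∈ B, 0 ≤ r z y) →
          (∀ z, ∀ y ∈ B, σ ^ 2 * r z y ≤ avg A fun x => M z x y ^ 2) →
          avg C (fun z => avg B (r z)) = cnt C s σ →
          avg C (fun z => avg B fun y => r z y ^ 2) ≤ β) →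
        ∃ b c : ℤ × ℤ → ℝ, (avg (A ×ˢ C) fun q => b q ^ 2) = cnt C s σ ∧
          (avg (B ×ˢ C) fun q => c q ^ 2) = cnt C s σ ∧
          (avg (A ×ˢ C) fun q => b q ^ 4) ≤ 6 * β ∧ (avg (B ×ˢ C) fun q => c q ^ 4) ≤ 6 * β ∧
          σ * cnt C s σ ≤ avg C fun z => avg A fun x => avg B fun y =>
            M z x y * (b (x, z) * c (y, z)) := by
  classical
  have hcA : (0 : ℝ) < A.card := by exact_mod_cast hA.card_pos
  have hcB : (0 : ℝ) < B.card := by exact_mod_cast hB.card_pos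
  set κ : ℝ := √((A.card : ℝ) * B.card) with hκ
  have hκ0 : 0 < κ := Real.sqrt_pos.2 (by positivity)
  have hκ2 : κ ^ 2 = (A.card : ℝ) * B.card := Real.sq_sqrt (by positivity)
  have hκ' : √(A.card : ℝ) * √(B.card : ℝ) = κ := by
    rw [hκ, Real.sqrt_mul hcA.le]
  have hsv := fun z : ℤ => exists_svd (X := A) (Y := B) fun x y => κ⁻¹ * M z x y
  choose s φ ψ hs0 hφ hψ hM hrow hcol h2 h4 using hsv
  refine ⟨s, hs0, ?_, ?_, ?_⟩
  · intro z
    rw [h2, avg_coe]
    have e1 : ∀ x : A, ∑ y : B, (κ⁻¹ * M z x y) ^ 2 =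
        (A.card : ℝ)⁻¹ * avg B fun y => M z x y ^ 2 := by
      intro x
      rw [avg_coe, ← mul_assoc, ← mul_inv, ← hκ2, mul_sum]
      exact sum_congr rfl fun y _ => by rw [mul_pow, inv_pow]
    simp only [e1]
    rw [mul_sum]
  · intro z
    rw [h4, avg_coe]
    have e1 : ∀ x c : A, (∑ y : B, κ⁻¹ * M z x y * (κ⁻¹ * M z c y)) ^ 2 =
        (A.card : ℝ)⁻¹ * ((A.card : ℝ)⁻¹ * g2 B (M z) x c ^ 2) := by
      intro x c
      have e2 : ∑ y : B, κ⁻¹ * M z x y * (κ⁻¹ * M z c y) =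
          (A.card : ℝ)⁻¹ * g2 B (M z) x c := by
        unfold g2
        rw [avg_coe, ← mul_assoc, ← mul_inv, ← hκ2, mul_sum]
        exact sum_congr rfl fun y _ => by rw [sq, mul_inv]; ring
      rw [e2]; ring
    simp only [e1]
    rw [mul_sum]
    refine sum_congr rfl fun x _ => ?_
    rw [avg_coe, mul_sum, mul_sum]
  · intro C σ β hσ hr1 hr2
    set I : ℤ → Finset A := fun z => univ.filter fun i => σ ≤ s z i with hI
    have hcnt : cnt C s σ = avg C fun z => ((I z).card : ℝ) := by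
      unfold cnt; rfl
    have hpos : ∀ z, ∀ i ∈ I z, 0 < s z i := fun z i hi => hσ.trans_le (mem_filter.1 hi).2
    -- the tests
    set bb : (A → Bool) → ℤ × ℤ → ℝ := fun ε q =>
      √(A.card : ℝ) * ext A (fun x => rs (I q.2) (fun i => φ q.2 i x) ε) q.1 with hbb
    set cc : (A → Bool) → ℤ × ℤ → ℝ := fun ε q =>
      √(B.card : ℝ) * ext B (fun y => rs (I q.2) (fun i => ψ q.2 i y) ε) q.1 with hcc
    have hb2 : ∀ ε z, (avg A fun x => bb ε (x, z) ^ 2) = (I z).card := by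
      intro ε z
      rw [avg_coe]
      have e1 : ∀ x : A, bb ε ((x : ℤ), z) ^ 2 =
          A.card * rs (I z) (fun i => φ z i x) ε ^ 2 := by
        intro x
        simp only [hbb]
        rw [mul_pow, Real.sq_sqrt hcA.le, ext_coe A _ x]
      simp only [e1]
      rw [← mul_sum, orth_sum (I z) (fun i x => φ z i x) (fun i _ j _ => hφ z i j) ε]
      field_simp
    have hc2 : ∀ ε z, (avg B fun y => cc ε (y, z) ^ 2) = (I z).card := by
      intro ε z
      rw [avg_coe]
      have e1 : ∀ y : B, cc ε ((y : ℤ), z) ^ 2 =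
          B.card * rs (I z) (fun i => ψ z i y) ε ^ 2 := by
        intro y
        simp only [hcc]
        rw [mul_pow, Real.sq_sqrt hcB.le, ext_coe B _ y]
      simp only [e1]
      rw [← mul_sum, orth_sum (I z) (fun i y => ψ z i y)
        (fun i hi j hj => hψ z i j (hpos z i hi) (hpos z j hj)) ε]
      field_simp
    -- the rows
    set r1 : ℤ → ℤ → ℝ := fun z x => A.card * ext A (fun x => ∑ i ∈ I z, φ z i x ^ 2) x with hr1d
    set r2 : ℤ → ℤ → ℝ := fun z y => B.card * ext B (fun y => ∑ i ∈ I z, ψ z i y ^ 2) y with hr2d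
    have hr1c : ∀ z (x : A), r1 z x = A.card * ∑ i ∈ I z, φ z i x ^ 2 := fun z x => by
      simp only [hr1d]
      rw [ext_coe A _ x]
    have hr2c : ∀ z (y : B), r2 z y = B.card * ∑ i ∈ I z, ψ z i y ^ 2 := fun z y => by
      simp only [hr2d]
      rw [ext_coe B _ y]
    have hI2 : ∀ z, ∀ i ∈ I z, σ ^ 2 ≤ s z i ^ 2 := fun z i hi =>
      pow_le_pow_left₀ hσ.le (mem_filter.1 hi).2 2
    have q1 : ∀ z, ∀ x ∈ A, 0 ≤ r1 z x := fun z x hx => by
      rw [hr1c z ⟨x, hx⟩]
      exact mul_nonneg hcA.le (sum_nonneg fun _ _ => sq_nonneg _)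
    have q1' : ∀ z, ∀ y ∈ B, 0 ≤ r2 z y := fun z y hy => by
      rw [hr2c z ⟨y, hy⟩]
      exact mul_nonneg hcB.le (sum_nonneg fun _ _ => sq_nonneg _)
    have q2 : ∀ z, ∀ x ∈ A, σ ^ 2 * r1 z x ≤ avg B fun y => M z x y ^ 2 := by
      intro z x hx
      have h1 : σ ^ 2 * ∑ i ∈ I z, φ z i ⟨x, hx⟩ ^ 2 ≤ ∑ i, s z i ^ 2 * φ z i ⟨x, hx⟩ ^ 2 := by
        rw [mul_sum]
        refine (sum_le_sum fun i hi => mul_le_mul_of_nonneg_right (hI2 z i hi)
          (sq_nonneg _)).trans ?_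
        exact sum_le_sum_of_subset_of_nonneg (filter_subset _ _) fun _ _ _ => by positivity
      rw [hrow] at h1
      have h3 : ∑ y : B, (κ⁻¹ * M z x y) ^ 2 = (A.card : ℝ)⁻¹ * avg B fun y => M z x y ^ 2 := by
        rw [avg_coe, ← mul_assoc, ← mul_inv, ← hκ2, mul_sum]
        exact sum_congr rfl fun y _ => by rw [mul_pow, inv_pow]
      rw [h3] at h1
      rw [hr1c z ⟨x, hx⟩]
      have h5 := mul_le_mul_of_nonneg_left h1 hcA.le
      rw [← mul_assoc (A.card : ℝ) (A.card : ℝ)⁻¹, mul_inv_cancel₀ hcA.ne', one_mul] at h5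
      linarith
    have q2' : ∀ z, ∀ y ∈ B, σ ^ 2 * r2 z y ≤ avg A fun x => M z x y ^ 2 := by
      intro z y hy
      have h1 : σ ^ 2 * ∑ i ∈ I z, ψ z i ⟨y, hy⟩ ^ 2 ≤ ∑ i, s z i ^ 2 * ψ z i ⟨y, hy⟩ ^ 2 := by
        rw [mul_sum]
        refine (sum_le_sum fun i hi => mul_le_mul_of_nonneg_right (hI2 z i hi)
          (sq_nonneg _)).trans ?_
        exact sum_le_sum_of_subset_of_nonneg (filter_subset _ _) fun _ _ _ => by positivity
      replace h1 := h1.trans (hcol z ⟨y, hy⟩)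
      have h3 : ∑ x : A, (κ⁻¹ * M z x y) ^ 2 = (B.card : ℝ)⁻¹ * avg A fun x => M z x y ^ 2 := by
        rw [avg_coe, ← mul_assoc, ← mul_inv, mul_comm (B.card : ℝ), ← hκ2, mul_sum]
        exact sum_congr rfl fun y _ => by rw [mul_pow, inv_pow]
      rw [h3] at h1
      rw [hr2c z ⟨y, hy⟩]
      have h5 := mul_le_mul_of_nonneg_left h1 hcB.le
      rw [← mul_assoc (B.card : ℝ) (B.card : ℝ)⁻¹, mul_inv_cancel₀ hcB.ne', one_mul] at h5
      linarith
    have q3 : avg C (fun z => avg A (r1 z)) = cnt C s σ := by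
      rw [hcnt]
      refine avg_congr fun z _ => ?_
      rw [avg_coe]
      simp only [hr1c]
      rw [← mul_sum, ← mul_assoc, inv_mul_cancel₀ hcA.ne', one_mul, sum_comm]
      have : ∀ i ∈ I z, ∑ x, φ z i x ^ 2 = 1 := fun i _ => by
        have := hφ z i i
        rw [if_pos rfl] at this
        rw [← this]
        exact sum_congr rfl fun x _ => by ring
      rw [sum_congr rfl this]
      simp
    have q3' : avg C (fun z => avg B (r2 z)) = cnt C s σ := by
      rw [hcnt]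
      refine avg_congr fun z _ => ?_
      rw [avg_coe]
      simp only [hr2c]
      rw [← mul_sum, ← mul_assoc, inv_mul_cancel₀ hcB.ne', one_mul, sum_comm]
      have : ∀ i ∈ I z, ∑ y, ψ z i y ^ 2 = 1 := fun i hi => by
        have := hψ z i i (hpos z i hi) (hpos z i hi)
        rw [if_pos rfl] at this
        rw [← this]
        exact sum_congr rfl fun x _ => by ring
      rw [sum_congr rfl this]
      simp
    have hb4 : av (fun ε => avg (A ×ˢ C) fun q => bb ε q ^ 4) ≤ 3 * β := by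
      have e1 : av (fun ε => avg (A ×ˢ C) fun q => bb ε q ^ 4) =
          avg (A ×ˢ C) fun q => av fun ε => bb ε q ^ 4 := by
        unfold avg
        rw [av_mul_left, av_sum]
      rw [e1]
      have e2 : (avg (A ×ˢ C) fun q => av fun ε => bb ε q ^ 4) ≤
          avg (A ×ˢ C) fun q => 3 * r1 q.2 q.1 ^ 2 := by
        refine avg_mono fun q hq => ?_
        have hqA := (Finset.mem_product.1 hq).1
        obtain ⟨x, z⟩ := q
        simp only at hqA
        have e3 : ∀ ε, bb ε (x, z) ^ 4 =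
            (A.card : ℝ) ^ 2 * rs (I z) (fun i => φ z i ⟨x, hqA⟩) ε ^ 4 := by
          intro ε
          simp only [hbb]
          rw [mul_pow, show √(A.card : ℝ) ^ 4 = (√(A.card : ℝ) ^ 2) ^ 2 by ring,
            Real.sq_sqrt hcA.le]
          congr 2
          exact ext_coe A _ ⟨x, hqA⟩
        simp only [e3]
        rw [av_mul_left]
        refine (mul_le_mul_of_nonneg_left (av_rs_four (I z) _) (by positivity)).trans
          (le_of_eq ?_)
        simp only [hr1d]
        rw [show ext A (fun x => ∑ i ∈ I z, φ z i x ^ 2) x = ∑ i ∈ I z, φ z i ⟨x, hqA⟩ ^ 2 from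
          ext_coe A _ ⟨x, hqA⟩]
        ring
      refine e2.trans ?_
      rw [avg_mul_left]
      refine mul_le_mul_of_nonneg_left ?_ (by norm_num)
      rw [avg_prod, avg_comm]
      exact hr1 r1 q1 q2 q3
    have hc4 : av (fun ε => avg (B ×ˢ C) fun q => cc ε q ^ 4) ≤ 3 * β := by
      have e1 : av (fun ε => avg (B ×ˢ C) fun q => cc ε q ^ 4) =
          avg (B ×ˢ C) fun q => av fun ε => cc ε q ^ 4 := by
        unfold avg
        rw [av_mul_left, av_sum]
      rw [e1]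
      have e2 : (avg (B ×ˢ C) fun q => av fun ε => cc ε q ^ 4) ≤
          avg (B ×ˢ C) fun q => 3 * r2 q.2 q.1 ^ 2 := by
        refine avg_mono fun q hq => ?_
        have hqB := (Finset.mem_product.1 hq).1
        obtain ⟨y, z⟩ := q
        simp only at hqB
        have e3 : ∀ ε, cc ε (y, z) ^ 4 =
            (B.card : ℝ) ^ 2 * rs (I z) (fun i => ψ z i ⟨y, hqB⟩) ε ^ 4 := by
          intro ε
          simp only [hcc]
          rw [mul_pow, show √(B.card : ℝ) ^ 4 = (√(B.card : ℝ) ^ 2) ^ 2 by ring,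
            Real.sq_sqrt hcB.le]
          congr 2
          exact ext_coe B _ ⟨y, hqB⟩
        simp only [e3]
        rw [av_mul_left]
        refine (mul_le_mul_of_nonneg_left (av_rs_four (I z) _) (by positivity)).trans
          (le_of_eq ?_)
        simp only [hr2d]
        rw [show ext B (fun y => ∑ i ∈ I z, ψ z i y ^ 2) y = ∑ i ∈ I z, ψ z i ⟨y, hqB⟩ ^ 2 from
          ext_coe B _ ⟨y, hqB⟩]
        ring
      refine e2.trans ?_
      rw [avg_mul_left]
      refine mul_le_mul_of_nonneg_left ?_ (by norm_num)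
      rw [avg_prod, avg_comm]
      exact hr2 r2 q1' q2' q3'
    obtain ⟨ε, hε⟩ := exists_le_av (fun ε : A → Bool =>
      (avg (A ×ˢ C) fun q => bb ε q ^ 4) + avg (B ×ˢ C) fun q => cc ε q ^ 4)
    rw [av_add] at hε
    have n1 : 0 ≤ avg (A ×ˢ C) fun q => bb ε q ^ 4 := avg_nonneg fun _ _ => by positivity
    have n2' : 0 ≤ avg (B ×ˢ C) fun q => cc ε q ^ 4 := avg_nonneg fun _ _ => by positivity
    refine ⟨bb ε, cc ε, ?_, ?_, by linarith, by linarith, ?_⟩
    · rw [avg_prod, avg_comm, hcnt]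
      exact avg_congr fun z _ => hb2 ε z
    · rw [avg_prod, avg_comm, hcnt]
      exact avg_congr fun z _ => hc2 ε z
    · rw [hcnt, ← avg_mul_left]
      refine avg_mono fun z _ => ?_
      have e1 : (avg A fun x => avg B fun y => M z x y * (bb ε (x, z) * cc ε (y, z))) =
          ∑ x : A, ∑ y : B, κ⁻¹ * M z x y * (rs (I z) (fun i => φ z i x) ε *
            rs (I z) (fun i => ψ z i y) ε) := by
        rw [avg_coe, mul_sum]
        refine sum_congr rfl fun x _ => ?_
        rw [avg_coe, mul_sum, mul_sum]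
        refine sum_congr rfl fun y _ => ?_
        simp only [hbb, hcc]
        rw [ext_coe A _ x, ext_coe B _ y]
        have e2 : (A.card : ℝ)⁻¹ * (B.card : ℝ)⁻¹ * (√(A.card : ℝ) * √(B.card : ℝ)) = κ⁻¹ := by
          rw [hκ', ← mul_inv, ← hκ2]
          field_simp
        rw [← e2]
        ring
      rw [e1, bil_sum (I z) (fun i x => φ z i x) (fun i y => ψ z i y)
        (fun x y => κ⁻¹ * M z x y) (s z) (fun i _ j hj => hM z i j (hpos z j hj)) ε]
      rw [mul_comm, ← nsmul_eq_mul]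
      exact card_nsmul_le_sum _ _ _ fun i hi => (mem_filter.1 hi).2

end

end Vale.Agent.P141.H834
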